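import Vale.Agent.P106.R.E8.Ray

/-! # P106 / R / E8 / CUT1 : the real lemmas (helper823)

* `sin_ang_le` : the directions of two close normals are close.
* `core` : the frame of a real box of level `c'`, read in the coordinates of the level `c` and transported to the ray of a
  piece, is admissible.
-/

set_option autoImplicit false

namespace Vale.Agent.P106.R.E8

open Finset
open Vale.Agent.P106.W (Cbx)

/-- difference of the directions of two normals -/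
theorem sin_ang_eq (a b : Fin 2 → ℝ) (ha : 0 < a 0 ^ 2 + a 1 ^ 2) (hb : 0 < b 0 ^ 2 + b 1 ^ 2) :
    Real.sin (ang a - ang b) = -(crs a b) / (Real.sqrt (a 0 ^ 2 + a 1 ^ 2) * Real.sqrt (b 0 ^ 2 + b 1 ^ 2)) := by
  have hn : ∀ v : Fin 2 → ℝ, ‖(⟨v 1, -(v 0)⟩ : ℂ)‖ = Real.sqrt (v 0 ^ 2 + v 1 ^ 2) := by
    intro v
    rw [Complex.norm_def, Complex.normSq_mk]
    congr 1
    ring
  have hz : ∀ v : Fin 2 → ℝ, 0 < v 0 ^ 2 + v 1 ^ 2 → (⟨v 1, -(v 0)⟩ : ℂ) ≠ 0 := by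
    intro v hv h
    have h1 : v 1 = 0 := congrArg Complex.re h
    have h2 : -(v 0) = 0 := congrArg Complex.im h
    have h3 : v 0 = 0 := by linarith
    rw [h1, h3] at hv
    norm_num at hv
  have sa := Real.sqrt_pos.2 ha
  have sb := Real.sqrt_pos.2 hb
  rw [Real.sin_sub, ang, ang, Complex.sin_arg, Complex.sin_arg, Complex.cos_arg (hz a ha), Complex.cos_arg (hz b hb), hn, hn]
  simp only [crs]
  field_simp
  ring

/-- close normals have close directions -/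
theorem sin_ang_le (a b : Fin 2 → ℝ) {c δ : ℝ} (ha : 0 < a 0 ^ 2 + a 1 ^ 2) (hc : 0 < c) (hb : c ^ 2 ≤ b 0 ^ 2 + b 1 ^ 2)
    (hδ : ∀ k, |b k - a k| ≤ δ) : |Real.sin (ang a - ang b)| ≤ 2 * δ / c := by
  have hb0 : 0 < b 0 ^ 2 + b 1 ^ 2 := lt_of_lt_of_le (by positivity) hb
  have sa := Real.sqrt_pos.2 ha
  have sb := Real.sqrt_pos.2 hb0
  have hcb : c ≤ Real.sqrt (b 0 ^ 2 + b 1 ^ 2) := Real.le_sqrt_of_sq_le hb
  have hδ0 : 0 ≤ δ := (abs_nonneg _).trans (hδ 0)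
  have h0 : |a 0| ≤ Real.sqrt (a 0 ^ 2 + a 1 ^ 2) := Real.abs_le_sqrt (by nlinarith [sq_nonneg (a 1)])
  have h1 : |a 1| ≤ Real.sqrt (a 0 ^ 2 + a 1 ^ 2) := Real.abs_le_sqrt (by nlinarith [sq_nonneg (a 0)])
  rw [sin_ang_eq a b ha hb0, abs_div, abs_neg, abs_of_pos (mul_pos sa sb), div_le_div_iff₀ (mul_pos sa sb) hc]
  have hx : |crs a b| ≤ Real.sqrt (a 0 ^ 2 + a 1 ^ 2) * (2 * δ) := by
    have e : crs a b = a 0 * (b 1 - a 1) - a 1 * (b 0 - a 0) := by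
      simp only [crs]
      ring
    rw [e]
    refine (abs_sub _ _).trans ?_
    rw [abs_mul, abs_mul]
    have i1 : |a 0| * |b 1 - a 1| ≤ Real.sqrt (a 0 ^ 2 + a 1 ^ 2) * δ := mul_le_mul h0 (hδ 1) (abs_nonneg _) sa.le
    have i2 : |a 1| * |b 0 - a 0| ≤ Real.sqrt (a 0 ^ 2 + a 1 ^ 2) * δ := mul_le_mul h1 (hδ 0) (abs_nonneg _) sa.le
    linarith
  calc |crs a b| * c ≤ (Real.sqrt (a 0 ^ 2 + a 1 ^ 2) * (2 * δ)) * Real.sqrt (b 0 ^ 2 + b 1 ^ 2) :=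
        mul_le_mul hx hcb hc.le (by positivity)
    _ = 2 * δ * (Real.sqrt (a 0 ^ 2 + a 1 ^ 2) * Real.sqrt (b 0 ^ 2 + b 1 ^ 2)) := by ring

/-- the normal of the box at a ray close to its centre -/
theorem cfr_len {B : Cbx} {rB HB : ℝ} (hB : B.ok (1 / 8) rB HB) {ν : Ry} (h1 : ∀ k, |ν.y k - B.p k| ≤ B.u2)
    (h2 : ∀ k, |ν.s k - B.v k| ≤ B.u2) :
    (2 / 5 : ℝ) ^ 2 ≤ ((cfr B).tr (cray B) ν).n 0 ^ 2 + ((cfr B).tr (cray B) ν).n 1 ^ 2 ∧
      ((cfr B).tr (cray B) ν).n 0 ^ 2 + ((cfr B).tr (cray B) ν).n 1 ^ 2 ≤ (8 / 5 : ℝ) ^ 2 := by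
  obtain ⟨L, θ', l1, l2, n0, n1⟩ := B.nn_len hB le_rfl ν.y ν.s h1 h2
  have e0 : ((cfr B).tr (cray B) ν).n 0 = B.nn ν.y ν.s 0 := by
    simp [Cbx.nn, cfr, cray]
  have e1 : ((cfr B).tr (cray B) ν).n 1 = B.nn ν.y ν.s 1 := by
    simp [Cbx.nn, cfr, cray]
  have e : ((cfr B).tr (cray B) ν).n 0 ^ 2 + ((cfr B).tr (cray B) ν).n 1 ^ 2 = L ^ 2 := by
    rw [e0, e1, n0, n1]
    have := Real.sin_sq_add_cos_sq θ'
    linear_combination L ^ 2 * this
  rw [e]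
  constructor <;> nlinarith

theorem core_key {x y : ℝ} (hx : x ^ 2 ≤ (8 / 5) ^ 2) (h3 : -(1 / 16) ≤ y - x) (h4 : y - x ≤ 1 / 16) : y ^ 2 ≤ x ^ 2 + 1 / 4 ∧
    x ^ 2 ≤ 5 / 4 * y ^ 2 + 5 / 256 := by
  have hx' := abs_le_of_sq_le_sq' hx (by norm_num : (0:ℝ) ≤ 8 / 5)
  constructor
  · nlinarith [hx'.1, hx'.2]
  · nlinarith [sq_nonneg (y - 4 * (x - y)), mul_nonneg (sub_nonneg.2 h4) (sub_nonneg.2 h3)]

/-- size of the curvatures in the coordinates of the lower level -/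
theorem core_kα {B : Cbx} {rB HB q ρ p : ℝ} (hB : B.ok (1 / 8) rB HB) (hq : 1 ≤ q) (hρ0 : 0 ≤ ρ) (hρ : ρ ≤ q) (hp0 : 0 < p)
    (hp2 : p ≤ 2 * B.u2) : |B.κ + 2 * B.α * ρ / q| ≤ |B.κ| + 2 * |B.α| ∧ |B.α / q| ≤ |B.α| ∧
      |B.κ + 2 * B.α * ρ / q| * p ≤ 3 / 4 ∧ |B.α / q| * p ≤ 1 / 4 := by
  have hq0 : 0 < q := lt_of_lt_of_le one_pos hq
  have hκ : |B.κ| * p ≤ 1 / 4 := by
    have := hB.κ2
    have h3 : |B.κ| * p ≤ |B.κ| * (2 * B.u2) := mul_le_mul_of_nonneg_left hp2 (abs_nonneg _)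
    linarith
  have hα : |B.α| * p ≤ 1 / 4 := by
    have := hB.α2
    have h3 : |B.α| * p ≤ |B.α| * (2 * B.u2) := mul_le_mul_of_nonneg_left hp2 (abs_nonneg _)
    linarith
  have hρq : |ρ / q| ≤ 1 := by
    rw [abs_of_nonneg (div_nonneg hρ0 hq0.le), div_le_one hq0]
    exact hρ
  have hκ0 : |B.κ + 2 * B.α * ρ / q| ≤ |B.κ| + 2 * |B.α| := by
    refine (abs_add_le _ _).trans ?_
    have : |2 * B.α * ρ / q| = 2 * |B.α| * |ρ / q| := by
      rw [mul_div_assoc, abs_mul, abs_mul, abs_two]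
    rw [this]
    nlinarith [abs_nonneg B.α]
  have hα0 : |B.α / q| ≤ |B.α| := by
    rw [abs_div, abs_of_pos hq0]
    exact div_le_self (abs_nonneg _) hq
  refine ⟨hκ0, hα0, ?_, (mul_le_mul_of_nonneg_right hα0 hp0.le).trans hα⟩
  have := mul_le_mul_of_nonneg_right hκ0 hp0.le
  nlinarith

/-- the normal at the ray of the piece -/
theorem core_n {B : Cbx} {rB HB q ρ C r p U : ℝ} {ν l : Ry} (hB : B.ok (1 / 8) rB HB) (hq : 1 ≤ q) (hρ0 : 0 ≤ ρ) (hρ : ρ ≤ q)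
    (hy : ∀ k, |l.y k - (ν.dn q ρ).y k| ≤ C * r) (hs : ∀ k, |l.s k - (ν.dn q ρ).s k| ≤ C * r)
    (hp2 : p ≤ 2 * B.u2) (hp0 : 0 < p) (hrU : r ≤ U) (hU0 : 0 < U) (hC : 1 ≤ C) :
    ∀ k, |(((cfr B).dn q ρ).tr ((cray B).dn q ρ) l).n k - ((cfr B).tr (cray B) ν).n k| ≤ 5 / 4 * C * (U / p) := by
  have hq0 : 0 < q := lt_of_lt_of_le one_pos hq
  have hCr : C * r ≤ C * U := mul_le_mul_of_nonneg_left hrU (by linarith)
  have hCU : 0 < C * U := by positivity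
  obtain ⟨-, -, hκp, hαp⟩ := core_kα hB hq hρ0 hρ hp0 hp2
  intro k
  have e : (((cfr B).dn q ρ).tr ((cray B).dn q ρ) l).n k = ((cfr B).tr (cray B) ν).n k +
      (B.κ + 2 * B.α * ρ / q) * (l.s k - (ν.dn q ρ).s k) - 2 * (B.α / q) * (l.y k - (ν.dn q ρ).y k) := by
    rw [← tr_tr ((cfr B).dn q ρ) ((cray B).dn q ρ) (ν.dn q ρ) l, dn_tr hq0.ne']
    rfl
  rw [← mul_div_assoc, le_div_iff₀ hp0, e]
  set x := l.s k - (ν.dn q ρ).s k with hx
  set y := l.y k - (ν.dn q ρ).y k with hyy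
  have h3 : ((cfr B).tr (cray B) ν).n k + (B.κ + 2 * B.α * ρ / q) * x - 2 * (B.α / q) * y - ((cfr B).tr (cray B) ν).n k =
      (B.κ + 2 * B.α * ρ / q) * x - 2 * (B.α / q) * y := by ring
  rw [h3]
  have h4 : |(B.κ + 2 * B.α * ρ / q) * x - 2 * (B.α / q) * y| ≤
      |B.κ + 2 * B.α * ρ / q| * (C * U) + 2 * |B.α / q| * (C * U) := by
    refine (abs_sub _ _).trans ?_
    rw [abs_mul, abs_mul, abs_mul, abs_two]
    have i1 := mul_le_mul_of_nonneg_left ((hs k).trans hCr) (abs_nonneg (B.κ + 2 * B.α * ρ / q))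
    have i2 := mul_le_mul_of_nonneg_left ((hy k).trans hCr) (by positivity : 0 ≤ 2 * |B.α / q|)
    linarith
  have h5 := mul_le_mul_of_nonneg_right h4 hp0.le
  have i3 := mul_le_mul_of_nonneg_right hκp hCU.le
  have i4 := mul_le_mul_of_nonneg_right hαp hCU.le
  refine h5.trans ?_
  have e5 : (|B.κ + 2 * B.α * ρ / q| * (C * U) + 2 * |B.α / q| * (C * U)) * p =
    |B.κ + 2 * B.α * ρ / q| * p * (C * U) + 2 * (|B.α / q| * p * (C * U)) := by ring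
  rw [e5]
  linarith

/-- admissibility of the frame of a real box, transported to the ray of a piece of another level -/
theorem core {B : Cbx} {rB HB q ρ C r H p U : ℝ} {ν l : Ry} (hB : B.ok (1 / 8) rB HB) (hq : 1 ≤ q) (hρ0 : 0 ≤ ρ) (hρ : ρ ≤ q)
    (hH : H = q * HB) (hHB : 0 ≤ HB) (h1 : ∀ k, |ν.y k - B.p k| ≤ B.u2) (h2 : ∀ k, |ν.s k - B.v k| ≤ B.u2)
    (hy : ∀ k, |l.y k - (ν.dn q ρ).y k| ≤ C * r) (hs : ∀ k, |l.s k - (ν.dn q ρ).s k| ≤ C * r)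
    (hp1 : B.u2 ≤ p) (hp2 : p ≤ 2 * B.u2) (hrU : r ≤ U) (hU : q * B.u1 ≤ U) (hpU : 20 * C * U ≤ p) (hC : 1 ≤ C) (hr : 0 < r)
    (hp : p ≤ 1) :
    (∀ k, |l.s k - ((cray B).dn q ρ).s k| ≤ 2 * p) ∧ OkF 16 (((cfr B).dn q ρ).tr ((cray B).dn q ρ) l) U p r H := by
  have hq0 : 0 < q := lt_of_lt_of_le one_pos hq
  have hU0 : 0 < U := lt_of_lt_of_le hr hrU
  have hCU : 0 < C * U := by positivity
  have hp0 : 0 < p := by linarith
  have hCr : C * r ≤ C * U := mul_le_mul_of_nonneg_left hrU (by linarith)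
  have hUp : U ≤ p := by
    have : U ≤ C * U := le_mul_of_one_le_left hU0.le hC
    linarith
  obtain ⟨hκ0, hα0, hκp, hαp⟩ := core_kα hB hq hρ0 hρ hp0 hp2
  have hδ'' : ∀ k, |(((cfr B).dn q ρ).tr ((cray B).dn q ρ) l).n k - ((cfr B).tr (cray B) ν).n k| ≤ 1 / 16 := by
    intro k
    refine (core_n hB hq hρ0 hρ hy hs hp2 hp0 hrU hU0 hC k).trans ?_
    rw [← mul_div_assoc, div_le_iff₀ hp0]
    linarith
  refine ⟨fun k => ?_, ?_⟩
  · have e1 : l.s k - ((cray B).dn q ρ).s k = (l.s k - (ν.dn q ρ).s k) + (ν.s k - B.v k) := by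
      simp only [Ry.dn, cray]
      ring
    rw [e1]
    refine (abs_add_le _ _).trans ?_
    have := hs k
    have := h2 k
    linarith
  · obtain ⟨n1, n2⟩ := cfr_len hB h1 h2
    set a := ((cfr B).tr (cray B) ν).n with ha
    set b := (((cfr B).dn q ρ).tr ((cray B).dn q ρ) l).n with hb
    have d0 := abs_le.1 (hδ'' 0)
    have d1 := abs_le.1 (hδ'' 1)
    have a0 : a 0 ^ 2 ≤ (8 / 5) ^ 2 := by linarith [sq_nonneg (a 1)]
    have a1 : a 1 ^ 2 ≤ (8 / 5) ^ 2 := by linarith [sq_nonneg (a 0)]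
    obtain ⟨k1, k2⟩ := core_key a0 d0.1 d0.2
    obtain ⟨k3, k4⟩ := core_key a1 d1.1 d1.2
    have hH0 : 0 ≤ H := by rw [hH]; positivity
    have g1 : |B.κ| * H ≤ U := by
      rw [hH]
      have := mul_le_mul_of_nonneg_left hB.κH hq0.le
      have e : |B.κ| * (q * HB) = q * (|B.κ| * HB) := by ring
      rw [e]
      exact this.trans hU
    have g2 : |B.α| * H ≤ U := by
      rw [hH]
      have := mul_le_mul_of_nonneg_left hB.αH hq0.le
      have e : |B.α| * (q * HB) = q * (|B.α| * HB) := by ring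
      rw [e]
      exact this.trans hU
    have g3 := mul_le_mul_of_nonneg_right hκ0 hH0
    have g4 := mul_le_mul_of_nonneg_right hα0 hH0
    have m1 : (2 / 5 : ℝ) ^ 2 = 4 / 25 := by norm_num
    have m2 : (8 / 5 : ℝ) ^ 2 = 64 / 25 := by norm_num
    rw [m1] at n1
    rw [m2] at n2
    refine ⟨?_, ?_, ?_, ?_, ?_, ?_, hrU, hUp, hp⟩
    · show 1 ≤ 16 * (b 0 ^ 2 + b 1 ^ 2)
      linarith
    · show b 0 ^ 2 + b 1 ^ 2 ≤ 16
      linarith
    · show |B.κ + 2 * B.α * ρ / q| * p ≤ 16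
      linarith
    · show |B.α / q| * p ≤ 16
      linarith
    · show |B.κ + 2 * B.α * ρ / q| * H ≤ 16 * U
      have : (|B.κ| + 2 * |B.α|) * H = |B.κ| * H + 2 * (|B.α| * H) := by ring
      linarith
    · show |B.α / q| * H ≤ 16 * U
      linarith

/-- two rays in the same cell -/
theorem floor_close823 {x y p : ℝ} (hp : 0 < p) (h : ⌊x / p⌋ = ⌊y / p⌋) : |y - x| ≤ p := by
  have h1 := Int.abs_sub_lt_one_of_floor_eq_floor h
  rw [← sub_div, abs_div, abs_of_pos hp, div_lt_one hp, abs_sub_comm] at h1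
  exact h1.le

/-- the pair condition inside a cell -/
theorem near_of_cell {p u H : ℝ} {F0 : Fr} {l0 l l' : Ry} (hp : 0 < p) (hu : 0 < u) (hcell : cell p u H F0 l0 l = cell p u H F0 l0 l')
    (hs : ∀ k, |l.s k - l0.s k| ≤ 2 * p) : Near 16 (F0.tr l0 l) u p H l l' := by
  simp only [cell, Prod.mk.injEq] at hcell
  obtain ⟨e1, e2, e3, e4, e5⟩ := hcell
  have hy : ∀ k, |l'.y k - l.y k| ≤ p := by
    intro k
    have := floor_close823 hp (congrFun e1 k)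
    have e : l'.y k - l0.y k - (l.y k - l0.y k) = l'.y k - l.y k := by ring
    rwa [e] at this
  have hss : ∀ k, |l'.s k - l.s k| ≤ p := by
    intro k
    have := floor_close823 hp (congrFun e2 k)
    have e : l'.s k - l0.s k - (l.s k - l0.s k) = l'.s k - l.s k := by ring
    rwa [e] at this
  have hm : 0 < max (p ^ 2) H := lt_max_of_lt_left (by positivity)
  refine ⟨fun k => (hy k).trans (by linarith), fun k => (hss k).trans (by linarith), ?_, ?_, ?_⟩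
  · have h1 := floor_close823 hm e3
    have e : dc l l' = (dc l0 l' - dc l0 l) - ∑ k, (l.s k - l0.s k) * (l'.y k - l.y k) := by
      rw [dc_add l0 l l']
      ring
    rw [e]
    refine (abs_sub _ _).trans ?_
    have h2 : |∑ k, (l.s k - l0.s k) * (l'.y k - l.y k)| ≤ 4 * p ^ 2 := by
      rw [Fin.sum_univ_two]
      refine (abs_add_le _ _).trans ?_
      rw [abs_mul, abs_mul]
      have i0 := mul_le_mul (hs 0) (hy 0) (abs_nonneg _) (by linarith)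
      have i1 := mul_le_mul (hs 1) (hy 1) (abs_nonneg _) (by linarith)
      nlinarith
    have h3 : p ^ 2 ≤ max (p ^ 2) H := le_max_left _ _
    linarith
  · have h1 := floor_close823 hu e4
    have e : GA (F0.tr l0 l) l l' = GA F0 l0 l' - GA F0 l0 l := by
      rw [GA_add F0 l0 l l']
      ring
    rw [e]
    linarith
  · have h1 := floor_close823 hu e5
    have e : GB (F0.tr l0 l) l l' = GB F0 l0 l' - GB F0 l0 l := by
      rw [GB_add F0 l0 l l']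
      ring
    rw [e]
    linarith

end Vale.Agent.P106.R.E8
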