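import Vale.Agent.P106.R.E8.SigRay
import Vale.Agent.P106.R.E8.H823.Core
import Vale.Agent.P106.R.H518.E12

/-! # P106 / R / E8 / CUT1 (helper823)

`stCUT1` : the variable `zz` is a pairwise box around the pieces with the frame `wfr`; the direction of the frame is the wide
direction of `W c'`.  The width `2^-m'` is negligible against `2^-kk` (hypothesis `kk + A ≤ m'` for all constants `A`; false for
`kk = m'`: the curvature `2^kk / 16` turns the normal by a constant inside the piece of radius `2^-m'`).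
-/

set_option autoImplicit false

namespace Vale.Agent.P106.R.E8

open Filter Topology Finset Vale.Agent.P127 Vale.Agent.P127.Stk Vale.Agent.P127.U Vale.Agent.P127.U.Sys Vale.Agent.P106.R.C2
  Vale.Agent.P106.R.E
open Vale.Agent.P106.W (Cbx)

theorem Near.mono {C C' u1 u2 H : ℝ} {f : Fr} {l l' : Ry} (h : Near C f u1 u2 H l l') (hC : C ≤ C') (h1 : 0 ≤ u1) (h2 : 0 ≤ u2) :
    Near C' f u1 u2 H l l' := by
  obtain ⟨a, b, c, d, e⟩ := h
  have hm : 0 ≤ max (u2 ^ 2) H := le_max_of_le_left (sq_nonneg _)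
  exact ⟨fun k => (a k).trans (mul_le_mul_of_nonneg_right hC h2), fun k => (b k).trans (mul_le_mul_of_nonneg_right hC h2),
    c.trans (mul_le_mul_of_nonneg_right hC hm), d.trans (mul_le_mul_of_nonneg_right hC h1),
    e.trans (mul_le_mul_of_nonneg_right hC h1)⟩

theorem OkF.mono {C C' u1 u2 r H : ℝ} {f : Fr} (h : OkF C f u1 u2 r H) (hC : C ≤ C') (h1 : 0 ≤ u1) : OkF C' f u1 u2 r H := by
  obtain ⟨a, b, c, d, e, g, x, y, z⟩ := h
  have hn : 0 ≤ f.n 0 ^ 2 + f.n 1 ^ 2 := by positivity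
  exact ⟨a.trans (mul_le_mul_of_nonneg_right hC hn), b.trans hC, c.trans hC, d.trans hC,
    e.trans (mul_le_mul_of_nonneg_right hC h1), g.trans (mul_le_mul_of_nonneg_right hC h1), x, y, z⟩

variable {K : ℕ}

/-- `zz` is a function of the plank of level `c`, of the plank of level `c'` and of its box -/
theorem zz_congr (F : Flg K) (W : ℕ → F.S.RV Cbx) (kk : ℕ → ℕ → ℕ) (m' : ℕ → ℕ) (c c' d : ℕ) {i : ℕ} {ω ω' : F.S.Ω i}
    (h0 : W c' i ω = W c' i ω') (h1 : F.N c i ω = F.N c i ω') (h2 : F.N c' i ω = F.N c' i ω') :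
    zz F W kk m' c c' d i ω = zz F W kk m' c c' d i ω' := by
  simp only [zz, wray, rr, pray, Flg.T, Flg.sig, h0, h1, h2]

theorem Hc_qq (F : Flg K) {c c' : ℕ} (i : ℕ) (h : c ≤ c') : Hc F c i = qq F c c' i * Hc F c' i := by
  have hc0 : (0 : ℝ) < 2 ^ (2 * c * F.n i) := by positivity
  have hc1 : (0 : ℝ) < 2 ^ (2 * c' * F.n i) := by positivity
  unfold Hc W.hh qq
  rw [mul_div_assoc', div_eq_div_iff hc0.ne' hc1.ne']
  have e : (2 : ℝ) ^ (2 * c' * F.n i) = 2 ^ (2 * (c' - c) * F.n i) * 2 ^ (2 * c * F.n i) := by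
    rw [← pow_add, ← add_mul]
    congr 2
    omega
  rw [e]
  ring

theorem one_le_qq (F : Flg K) (c c' i : ℕ) : 1 ≤ qq F c c' i := one_le_pow₀ (by norm_num)

/-- **[CUT1]** with the width `2^-m'` negligible against `2^-kk` -/
def StCUT1' : Prop := AllA fun {K} F _ _ _ _ W kk jj => ∀ (c c' d : ℕ) (m' : ℕ → ℕ), 1 ≤ c → c ≤ c' → c' ≤ d → d ≤ 2 * c → d ≤ K →
  2 * (d - c) ≤ F.h → (∀ᶠ i in (uf : Filter ℕ), m' i ≤ mm F c d i ∧ m' i + 2 * (c' - c) * F.n i ≤ jj c' i ∧ kk c' i ≤ m' i) →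
  (∀ A : ℕ, ∀ᶠ i in (uf : Filter ℕ), kk c' i + A ≤ m' i) →
  Tame (zz F W kk m' c c' d) ∧
  ∃ C : ℝ, PB C (Hc F c) (fun i => (1 / 2 : ℝ) ^ mm F c d i) (pray F c d) (zz F W kk m' c c' d) (wfr F W c c' d)
      (fun i _ => (1 / 2 : ℝ) ^ m' i) (fun i _ => (1 / 2 : ℝ) ^ kk c' i) ∧
    ∀ᶠ i in (uf : Filter ℕ), ∀ ω, 0 < (F.S.P i).w ω →
      |Real.sin (F.wd c' (W c') i ω - ang (wfr F W c c' d i ω).n)| ≤ C * 2 ^ kk c' i * (1 / 2) ^ m' i

theorem pow_half_add (a b : ℕ) : (2 : ℝ) ^ b * (1 / 2) ^ (a + b) = (1 / 2) ^ a := by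
  rw [pow_add, mul_left_comm, ← mul_pow]
  norm_num

/-- **[CUT1]** -/
theorem stCUT1' : StCUT1' := by
  intro K F J θ H e W kk jj hK R c c' d m' hc hcc hcd hd hdK hh hm hA
  have hc'K : c' ≤ K := hcd.trans hdK
  have hcK : c ≤ K := hcc.trans hc'K
  obtain ⟨C, hC, hG⟩ := sig_ray F
  obtain ⟨A, hA20⟩ := pow_unbounded_of_one_lt (20 * C) (by norm_num : (1 : ℝ) < 2)
  -- the data of the core lemma
  have key : ∀ᶠ i in (uf : Filter ℕ), ∀ ω, 0 < (F.S.P i).w ω →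
      (∀ k, |(pray F c d i ω).s k - (wray F W c c' i ω).s k| ≤ 2 * (1 / 2 : ℝ) ^ kk c' i) ∧
      OkF 16 (wfr F W c c' d i ω) ((1 / 2 : ℝ) ^ m' i) ((1 / 2 : ℝ) ^ kk c' i) ((1 / 2 : ℝ) ^ mm F c d i) (Hc F c i) ∧
      |Real.sin (F.wd c' (W c') i ω - ang (wfr F W c c' d i ω).n)| ≤ 10 * C * 2 ^ kk c' i * (1 / 2) ^ m' i := by
    filter_upwards [hm, hA A, R.Wok c' hc'K] with i h1 h2 h3 ω hω
    obtain ⟨hm1, hm2, -⟩ := h1
    obtain ⟨w1, w2, ⟨w3, w4⟩, ⟨w5, w6⟩, w7, w8⟩ := h3 ω hω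
    have hin := (InP_iff F c' i ω (W c' i ω)).1 w1
    have hok : (W c' i ω).ok (1 / 8) (2 ^ (c' * F.n i) / 2 ^ (2 * c' * F.n i)) (Hc F c' i) := by
      have := w2
      unfold Okb at this
      rw [F.hs i] at this
      exact this
    have hcl := hG c c' d i hcc hcd hd hdK hh ω hω ((nray F c' i ω).dn (qq F c c' i) (rr F c c' i ω)) (by simp)
      (pray F c d i ω) (by simp)
    have hq := one_le_qq F c c' i
    have hq0 := qq_pos F c c' i
    have hρ0 := rr_nonneg F hω hcc hc'K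
    have hρ := rr_le F hω hcc hc'K
    have hin1 : ∀ k, |(nray F c' i ω).y k - (W c' i ω).p k| ≤ (W c' i ω).u2 := fun k => by
      have := hin.1 k
      rwa [one_mul] at this
    have hin2 : ∀ k, |(nray F c' i ω).s k - (W c' i ω).v k| ≤ (W c' i ω).u2 := fun k => by
      have := hin.2.1 k
      rwa [one_mul] at this
    have hp2 : (1 / 2 : ℝ) ^ kk c' i ≤ 2 * (W c' i ω).u2 := by
      rw [pow_succ] at w3
      linarith
    have hrU : (1 / 2 : ℝ) ^ mm F c d i ≤ (1 / 2 : ℝ) ^ m' i := pow_le_pow_of_le_one (by norm_num) (by norm_num) hm1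
    have hU : qq F c c' i * (W c' i ω).u1 ≤ (1 / 2 : ℝ) ^ m' i := by
      calc _ ≤ qq F c c' i * (1 / 2 : ℝ) ^ jj c' i := mul_le_mul_of_nonneg_left w6 hq0.le
        _ ≤ qq F c c' i * (1 / 2 : ℝ) ^ (m' i + 2 * (c' - c) * F.n i) :=
            mul_le_mul_of_nonneg_left (pow_le_pow_of_le_one (by norm_num) (by norm_num) hm2) hq0.le
        _ = _ := pow_half_add _ _
    have hp0 : (0 : ℝ) < (1 / 2 : ℝ) ^ kk c' i := by positivity
    have hU0 : (0 : ℝ) < (1 / 2 : ℝ) ^ m' i := by positivity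
    have hpU : 20 * C * (1 / 2 : ℝ) ^ m' i ≤ (1 / 2 : ℝ) ^ kk c' i := by
      calc _ ≤ (2 : ℝ) ^ A * (1 / 2 : ℝ) ^ m' i := mul_le_mul_of_nonneg_right hA20.le hU0.le
        _ ≤ (2 : ℝ) ^ A * (1 / 2 : ℝ) ^ (kk c' i + A) :=
            mul_le_mul_of_nonneg_left (pow_le_pow_of_le_one (by norm_num) (by norm_num) h2) (by positivity)
        _ = _ := pow_half_add _ _
    obtain ⟨k1, k2⟩ := core hok hq hρ0 hρ (Hc_qq F i hcc) (Hc_pos F c' i).le hin1 hin2 hcl.1 hcl.2.1 w4 hp2 hrU hU hpU hC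
      (by positivity) (pow_le_one₀ (by norm_num) (by norm_num))
    refine ⟨k1, k2, ?_⟩
    -- direction
    have hn := core_n hok hq hρ0 hρ hcl.1 hcl.2.1 hp2 hp0 hrU hU0 hC
    obtain ⟨n1, -⟩ := cfr_len hok hin1 hin2
    have hwd : F.wd c' (W c') i ω = ang ((cfr (W c' i ω)).tr (cray (W c' i ω)) (nray F c' i ω)).n := rfl
    rw [hwd, ← abs_neg, ← Real.sin_neg, neg_sub]
    have hb : (1 / 4 : ℝ) ^ 2 ≤ ((cfr (W c' i ω)).tr (cray (W c' i ω)) (nray F c' i ω)).n 0 ^ 2 +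
        ((cfr (W c' i ω)).tr (cray (W c' i ω)) (nray F c' i ω)).n 1 ^ 2 := le_trans (by norm_num) n1
    have ha : 0 < (wfr F W c c' d i ω).n 0 ^ 2 + (wfr F W c c' d i ω).n 1 ^ 2 := by
      have := k2.1
      have e1 : (1 : ℝ) ≤ 16 * ((wfr F W c c' d i ω).n 0 ^ 2 + (wfr F W c c' d i ω).n 1 ^ 2) := this
      linarith
    refine (sin_ang_le (δ := 5 / 4 * C * ((1 / 2 : ℝ) ^ m' i / (1 / 2 : ℝ) ^ kk c' i)) (wfr F W c c' d i ω).n
      ((cfr (W c' i ω)).tr (cray (W c' i ω)) (nray F c' i ω)).n ha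
      (by norm_num : (0 : ℝ) < 1 / 4) hb (fun k => ?_)).trans (le_of_eq ?_)
    · rw [abs_sub_comm]
      exact hn k
    · have e2 : (1 / 2 : ℝ) ^ m' i / (1 / 2 : ℝ) ^ kk c' i = 2 ^ kk c' i * (1 / 2) ^ m' i := by
        rw [one_div, inv_pow, inv_pow, div_eq_mul_inv, inv_inv, mul_comm]
      rw [e2]
      ring
  refine ⟨?_, max 16 (10 * C), ⟨?_, ?_⟩, ?_⟩
  · -- tame
    refine ((H518.cnt_tame (R.N1 c hcK)).pr (H518.cnt_tame (R.N1 c' hc'K))).mono ?_
    filter_upwards [R.Wfn c' hc'K] with i h1 ω ω' hω hω' e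
    have e1 : F.N c i ω = F.N c i ω' := congrArg Prod.fst e
    have e2 : F.N c' i ω = F.N c' i ω' := congrArg Prod.snd e
    exact zz_congr F W kk m' c c' d (h1 ω ω' hω hω' e2) e1 e2
  · -- pairs
    filter_upwards [key] with i h1 ω ω' hω hω' e
    have e0 : W c' i ω = W c' i ω' := congrArg (fun z => z.1.1) e
    have e1 : F.T c' i ω = F.T c' i ω' := congrArg (fun z => z.1.2) e
    have e2 : F.T c i ω = F.T c i ω' := congrArg (fun z => z.2.1) e
    have e3 := congrArg (fun z => z.2.2) e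
    have er : rr F c c' i ω = rr F c c' i ω' := by
      unfold rr
      rw [e1, e2]
    have ew : wray F W c c' i ω = wray F W c c' i ω' := by
      unfold wray
      rw [er, e0]
    have ef : (cfr (W c' i ω)).dn (qq F c c' i) (rr F c c' i ω) = (cfr (W c' i ω')).dn (qq F c c' i) (rr F c c' i ω') := by
      rw [er, e0]
    have e4 : cell ((1 / 2 : ℝ) ^ kk c' i) ((1 / 2 : ℝ) ^ m' i) (Hc F c i) ((cfr (W c' i ω)).dn (qq F c c' i) (rr F c c' i ω))
        (wray F W c c' i ω) (pray F c d i ω) = cell ((1 / 2 : ℝ) ^ kk c' i) ((1 / 2 : ℝ) ^ m' i) (Hc F c i)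
        ((cfr (W c' i ω)).dn (qq F c c' i) (rr F c c' i ω)) (wray F W c c' i ω) (pray F c d i ω') := by
      conv_rhs => rw [ew, ef]
      exact e3
    refine ⟨rfl, rfl, ?_, ?_⟩
    · show ((cfr (W c' i ω')).dn (qq F c c' i) (rr F c c' i ω')).tr (wray F W c c' i ω') (pray F c d i ω') =
        (((cfr (W c' i ω)).dn (qq F c c' i) (rr F c c' i ω)).tr (wray F W c c' i ω) (pray F c d i ω)).tr
          (pray F c d i ω) (pray F c d i ω')
      rw [tr_tr, ew, ef]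
    · exact (near_of_cell (by positivity) (by positivity) e4 (h1 ω hω).1).mono (le_max_left _ _) (by positivity) (by positivity)
  · -- admissible
    filter_upwards [key] with i h1 ω hω
    exact (h1 ω hω).2.1.mono (le_max_left _ _) (by positivity)
  · -- direction
    filter_upwards [key] with i h1 ω hω
    refine (h1 ω hω).2.2.trans ?_
    have := le_max_right (16 : ℝ) (10 * C)
    gcongr

end Vale.Agent.P106.R.E8
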