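import Vale.Agent.P106.R.E8.Weak
import Vale.Agent.P106.R.E8.H823.Cut1

/-! # P106 / R / E8 / CUT1, the literal `Prop` of `Weak.lean` (helper823) -/

set_option autoImplicit false

namespace Vale.Agent.P106.R.E8

open Filter Topology

/-- **[CUT1]** -/
theorem stCUT1w : StCUT1w := by
  intro K F J θ H e W kk jj hK hR c c' d m' h1 h2 h3 h4 h5 h6 h7 h8
  refine stCUT1' F J θ H e W kk jj hK hR c c' d m' h1 h2 h3 h4 h5 h6 ?_ h8
  filter_upwards [h7, h8 0] with i a1 a2
  exact ⟨a1.1, a1.2, by simpa using a2⟩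

end Vale.Agent.P106.R.E8
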